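import Mathlib
import Crest.Agent.R273.GreenM_5

-- ▼ part X261/Har/Alg
section

/-!
# X261, HAR (helper94), file Alg: pointwise linear algebra of the Bochner identity

* `ip h x y = star y ⬝ᵥ h *ᵥ x` : the Hermitian product of covectors;
* `Bq h S T = tr (h S) tr (h T) - tr (h S h T)`;
* `boch_re_le`, `boch_eq` : sign and vanishing of the Bochner integrand.
-/

set_option autoImplicit false

open Complex Matrix
open scoped ComplexConjugate ComplexOrder

namespace Crest.Agent.X261.Har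

noncomputable section

variable {n : ℕ}

/-- Hermitian product of covectors -/
def ip (h : Matrix (Fin n) (Fin n) ℂ) (x y : Fin n → ℂ) : ℂ := star y ⬝ᵥ h *ᵥ x

theorem ip_eq (h : Matrix (Fin n) (Fin n) ℂ) (x y : Fin n → ℂ) :
    ip h x y = ∑ a, ∑ b, h b a * x a * conj (y b) := by
  unfold ip
  simp only [dotProduct, Matrix.mulVec, Finset.mul_sum, Pi.star_apply]
  rw [Finset.sum_comm]
  refine Finset.sum_congr rfl fun a _ => Finset.sum_congr rfl fun b _ => ?_
  change conj (y b) * _ = _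
  ring


theorem ip_sub_left (h : Matrix (Fin n) (Fin n) ℂ) (x x' y : Fin n → ℂ) :
    ip h (x - x') y = ip h x y - ip h x' y := by
  unfold ip; rw [Matrix.mulVec_sub, dotProduct_sub]

theorem ip_smul_left (h : Matrix (Fin n) (Fin n) ℂ) (c : ℂ) (x y : Fin n → ℂ) :
    ip h (c • x) y = c * ip h x y := by
  unfold ip; rw [Matrix.mulVec_smul, dotProduct_smul, smul_eq_mul]


theorem ip_sub_right (h : Matrix (Fin n) (Fin n) ℂ) (x y y' : Fin n → ℂ) :
    ip h x (y - y') = ip h x y - ip h x y' := by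
  unfold ip; rw [star_sub, sub_dotProduct]

theorem ip_smul_right (h : Matrix (Fin n) (Fin n) ℂ) (c : ℂ) (x y : Fin n → ℂ) :
    ip h x (c • y) = conj c * ip h x y := by
  unfold ip; rw [star_smul, smul_dotProduct, smul_eq_mul]; rfl


theorem ip_conj {h : Matrix (Fin n) (Fin n) ℂ} (hh : h.IsHermitian) (x y : Fin n → ℂ) :
    conj (ip h x y) = ip h y x := by
  rw [ip_eq, ip_eq, map_sum, Finset.sum_comm]
  refine Finset.sum_congr rfl fun a _ => ?_
  rw [map_sum]
  refine Finset.sum_congr rfl fun b _ => ?_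
  rw [map_mul, map_mul, conj_conj]
  have := hh.apply a b
  change conj (h b a) = h a b at this
  rw [this]
  ring

/-- the squared norm -/
def nq (h : Matrix (Fin n) (Fin n) ℂ) (x : Fin n → ℂ) : ℝ := (ip h x x).re

theorem ip_self {h : Matrix (Fin n) (Fin n) ℂ} (hh : h.IsHermitian) (x : Fin n → ℂ) :
    ip h x x = (nq h x : ℂ) := by
  have := ip_conj hh x x
  exact (Complex.conj_eq_iff_re.1 this).symm

theorem nq_nonneg {h : Matrix (Fin n) (Fin n) ℂ} (hh : h.PosDef) (x : Fin n → ℂ) :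
    0 ≤ nq h x := (Complex.le_def.1 (hh.posSemidef.dotProduct_mulVec_nonneg x)).1

theorem nq_pos {h : Matrix (Fin n) (Fin n) ℂ} (hh : h.PosDef) {x : Fin n → ℂ} (hx : x ≠ 0) :
    0 < nq h x := (Complex.pos_iff.1 (hh.dotProduct_mulVec_pos hx)).1

theorem eq_zero_of_nq {h : Matrix (Fin n) (Fin n) ℂ} (hh : h.PosDef) {x : Fin n → ℂ}
    (hx : nq h x = 0) : x = 0 := by
  by_contra h0
  exact (nq_pos hh h0).ne' hx

theorem nq_smul {h : Matrix (Fin n) (Fin n) ℂ} (hh : h.IsHermitian) (c : ℂ) (x : Fin n → ℂ) :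
    nq h (c • x) = ‖c‖ ^ 2 * nq h x := by
  unfold nq
  rw [ip_smul_left, ip_smul_right, ← mul_assoc, Complex.mul_conj, ip_self hh,
    Complex.normSq_eq_norm_sq]
  simp only [← Complex.ofReal_mul, Complex.ofReal_re]


theorem nq_sub {h : Matrix (Fin n) (Fin n) ℂ} (hh : h.IsHermitian) (x y : Fin n → ℂ) :
    nq h (x - y) = nq h x + nq h y - 2 * (ip h x y).re := by
  unfold nq
  rw [ip_sub_left, ip_sub_right, ip_sub_right, ← ip_conj hh x y]
  simp only [Complex.sub_re, Complex.conj_re]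
  ring


/-- the Gram defect -/
theorem nq_gram {h : Matrix (Fin n) (Fin n) ℂ} (hh : h.IsHermitian) (x y : Fin n → ℂ) :
    nq h ((nq h y : ℂ) • x - ip h x y • y) =
      nq h y * (nq h x * nq h y - ‖ip h x y‖ ^ 2) := by
  rw [nq_sub hh, nq_smul hh, nq_smul hh, ip_smul_left, ip_smul_right, mul_comm (conj _),
    Complex.mul_conj, Complex.normSq_eq_norm_sq, Complex.norm_real, Real.norm_eq_abs, sq_abs,
    ← Complex.ofReal_mul, Complex.ofReal_re]
  ring

theorem cs_le {h : Matrix (Fin n) (Fin n) ℂ} (hh : h.PosDef) (x y : Fin n → ℂ) :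
    ‖ip h x y‖ ^ 2 ≤ nq h x * nq h y := by
  by_cases hy : y = 0
  · subst hy
    have : ip h x 0 = 0 := by unfold ip; simp
    rw [this]
    have h2 : nq h (0 : Fin n → ℂ) = 0 := by unfold nq ip; simp
    simp [h2]
  · have h1 := nq_nonneg hh ((nq h y : ℂ) • x - ip h x y • y)
    rw [nq_gram hh.1] at h1
    have := nonneg_of_mul_nonneg_right (by rwa [mul_comm] at h1) (nq_pos hh hy)
    linarith

theorem cs_eq {h : Matrix (Fin n) (Fin n) ℂ} (hh : h.PosDef) {x y : Fin n → ℂ}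
    (he : ‖ip h x y‖ ^ 2 = nq h x * nq h y) (a b : Fin n) : y a * x b = y b * x a := by
  by_cases hy : y = 0
  · subst hy; simp
  · have h1 := nq_gram hh.1 x y
    rw [he, sub_self, mul_zero] at h1
    have h2 := eq_zero_of_nq hh h1
    have h3 : (nq h y : ℂ) ≠ 0 := by exact_mod_cast (nq_pos hh hy).ne'
    have ha := congrFun h2 a
    have hb := congrFun h2 b
    simp only [Pi.sub_apply, Pi.smul_apply, smul_eq_mul, Pi.zero_apply] at ha hb
    apply mul_left_cancel₀ h3
    linear_combination y a * hb - y b * ha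

/-! ### the quadratic form on `(1,1)` tensors -/

/-- `S ∧ T ∧ ω^{n-2}` up to the volume form -/
def Bq (h S T : Matrix (Fin n) (Fin n) ℂ) : ℂ :=
  (h * S).trace * (h * T).trace - (h * S * h * T).trace

theorem Bq_comm (h S T : Matrix (Fin n) (Fin n) ℂ) : Bq h S T = Bq h T S := by
  unfold Bq
  rw [mul_comm (h * S).trace, show h * S * h * T = (h * S) * (h * T) by simp only [Matrix.mul_assoc],
    Matrix.trace_mul_comm (h * S) (h * T),
    show h * T * h * S = (h * T) * (h * S) by simp only [Matrix.mul_assoc]]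

theorem Bq_add_left (h S S' T : Matrix (Fin n) (Fin n) ℂ) :
    Bq h (S + S') T = Bq h S T + Bq h S' T := by
  unfold Bq
  simp only [Matrix.mul_add, Matrix.add_mul, Matrix.trace_add]
  ring

theorem Bq_sub_left (h S S' T : Matrix (Fin n) (Fin n) ℂ) :
    Bq h (S - S') T = Bq h S T - Bq h S' T := by
  unfold Bq
  simp only [Matrix.mul_sub, Matrix.sub_mul, Matrix.trace_sub]
  ring

theorem Bq_add_right (h S T T' : Matrix (Fin n) (Fin n) ℂ) :
    Bq h S (T + T') = Bq h S T + Bq h S T' := by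
  rw [Bq_comm, Bq_add_left, Bq_comm h T, Bq_comm h T']

theorem Bq_sub_right (h S T T' : Matrix (Fin n) (Fin n) ℂ) :
    Bq h S (T - T') = Bq h S T - Bq h S T' := by
  rw [Bq_comm, Bq_sub_left, Bq_comm h T, Bq_comm h T']

theorem Bq_smul_right (h S T : Matrix (Fin n) (Fin n) ℂ) (c : ℂ) :
    Bq h S (c • T) = c * Bq h S T := by
  unfold Bq
  simp only [Matrix.mul_smul, Matrix.trace_smul, smul_eq_mul]
  ring

theorem trace_vv (h : Matrix (Fin n) (Fin n) ℂ) (x y : Fin n → ℂ) :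
    (h * vecMulVec x y).trace = y ⬝ᵥ h *ᵥ x := by
  rw [Matrix.mul_vecMulVec, Matrix.trace_vecMulVec, dotProduct_comm]

theorem trace_vv_ip (h : Matrix (Fin n) (Fin n) ℂ) (x y : Fin n → ℂ) :
    (h * vecMulVec x (star y)).trace = ip h x y := trace_vv h x _

theorem Bq_vv (h : Matrix (Fin n) (Fin n) ℂ) (x y x' y' : Fin n → ℂ) :
    Bq h (vecMulVec x (star y)) (vecMulVec x' (star y')) =
      ip h x y * ip h x' y' - ip h x' y * ip h x y' := by
  unfold Bq
  rw [trace_vv_ip, trace_vv_ip]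
  congr 1
  rw [show h * vecMulVec x (star y) * h * vecMulVec x' (star y') =
      (h * vecMulVec x (star y)) * (h * vecMulVec x' (star y')) by simp only [Matrix.mul_assoc],
    Matrix.mul_vecMulVec, Matrix.mul_vecMulVec, Matrix.vecMulVec_mul_vecMulVec,
    Matrix.trace_vecMulVec, dotProduct_smul, smul_eq_mul, dotProduct_comm (h *ᵥ x)]
  rfl

theorem vv_conjT (x y : Fin n → ℂ) : (vecMulVec x (star y))ᴴ = vecMulVec y (star x) := by
  ext a b
  simp [Matrix.conjTranspose_apply, vecMulVec_apply, mul_comm]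

theorem trace_conjT {h : Matrix (Fin n) (Fin n) ℂ} (hh : h.IsHermitian)
    (S : Matrix (Fin n) (Fin n) ℂ) : (h * Sᴴ).trace = conj (h * S).trace := by
  have h2 := Matrix.trace_conjTranspose (h * S)
  rw [Matrix.conjTranspose_mul, hh.eq, Matrix.trace_mul_comm] at h2
  exact h2

open scoped MatrixOrder in
theorem exists_sqrt {S : Matrix (Fin n) (Fin n) ℂ} (hS : S.PosSemidef) :
    ∃ B : Matrix (Fin n) (Fin n) ℂ, S = Bᴴ * B := by
  obtain ⟨B, hB⟩ := CStarAlgebra.nonneg_iff_eq_star_mul_self.mp hS.nonneg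
  exact ⟨B, by rw [hB, Matrix.star_eq_conjTranspose]⟩

theorem hs_nonneg {h : Matrix (Fin n) (Fin n) ℂ} (hh : h.PosDef) (Q : Matrix (Fin n) (Fin n) ℂ) :
    0 ≤ (h * Qᴴ * h * Q).trace ∧ ((h * Qᴴ * h * Q).trace = 0 → Q = 0) := by
  obtain ⟨B, hB⟩ := exists_sqrt hh.posSemidef
  have e : (h * Qᴴ * h * Q).trace = ((B * Q * Bᴴ)ᴴ * (B * Q * Bᴴ)).trace := by
    rw [hB]
    simp only [Matrix.conjTranspose_mul, Matrix.conjTranspose_conjTranspose]
    rw [show Bᴴ * B * Qᴴ * (Bᴴ * B) * Q = Bᴴ * (B * Qᴴ * (Bᴴ * B) * Q) by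
      simp only [Matrix.mul_assoc], Matrix.trace_mul_comm]
    simp only [Matrix.mul_assoc]
  rw [e]
  refine ⟨(Matrix.posSemidef_conjTranspose_mul_self _).trace_nonneg, fun h0 => ?_⟩
  have h1 := Matrix.trace_conjTranspose_mul_self_eq_zero_iff.1 h0
  have hd : B.det ≠ 0 := by
    intro hb
    have := hh.det_pos.ne'
    rw [hB, Matrix.det_mul, hb, mul_zero] at this
    exact this rfl
  have hu : IsUnit B.det := isUnit_iff_ne_zero.2 hd
  have hu' : IsUnit Bᴴ.det := by
    rw [Matrix.det_conjTranspose]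
    exact hu.star
  have h2 : Q = B⁻¹ * (B * Q * Bᴴ) * Bᴴ⁻¹ := by
    rw [show B⁻¹ * (B * Q * Bᴴ) * Bᴴ⁻¹ = (B⁻¹ * B) * Q * (Bᴴ * Bᴴ⁻¹) by
      simp only [Matrix.mul_assoc], Matrix.nonsing_inv_mul _ hu, Matrix.mul_nonsing_inv _ hu',
      Matrix.one_mul, Matrix.mul_one]
  rw [h2, h1, Matrix.mul_zero, Matrix.zero_mul]

/-- the Bochner integrand : `Am = ∂∂̄v`, `t = ∂u`, `q = ∂v`, `p = ∂ v̄` -/
def boch (h Am : Matrix (Fin n) (Fin n) ℂ) (t q p : Fin n → ℂ) : ℂ :=
  Bq h (Am - (2 : ℂ) • vecMulVec t (star p))ᴴ (Am - (2 : ℂ) • vecMulVec t (star p)) +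
    Bq h (Am - (2 : ℂ) • vecMulVec q (star t)) (Am - (2 : ℂ) • vecMulVec q (star t))ᴴ

/-- the Euler-Lagrange tensor -/
def Qm (Am : Matrix (Fin n) (Fin n) ℂ) (t q p : Fin n → ℂ) : Matrix (Fin n) (Fin n) ℂ :=
  Am - vecMulVec t (star p) - vecMulVec q (star t)

theorem boch_expand {h : Matrix (Fin n) (Fin n) ℂ} (hh : h.IsHermitian)
    (Am : Matrix (Fin n) (Fin n) ℂ) (t q p : Fin n → ℂ) (hE : (h * Qm Am t q p).trace = 0) :
    boch h Am t q p = - 2 * ((h * (Qm Am t q p)ᴴ * h * Qm Am t q p).trace +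
      ((nq h p * nq h t - ‖ip h p t‖ ^ 2 : ℝ) : ℂ) +
      ((nq h q * nq h t - ‖ip h q t‖ ^ 2 : ℝ) : ℂ)) := by
  set Q := Qm Am t q p with hQ
  set a := vecMulVec t (star p) with ha
  set b := vecMulVec q (star t) with hb
  have e1 : Am - (2 : ℂ) • a = Q - (a - b) := by
    rw [hQ, Qm, two_smul]; abel
  have e2 : Am - (2 : ℂ) • b = Q + (a - b) := by
    rw [hQ, Qm, two_smul]; abel
  have e3 : boch h Am t q p = 2 * Bq h Qᴴ Q + 2 * Bq h (a - b)ᴴ (a - b) := by
    unfold boch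
    rw [← ha, ← hb, e1, e2, Matrix.conjTranspose_sub Q, Matrix.conjTranspose_add Q,
      Bq_comm h (Q + (a - b))]
    simp only [Bq_sub_left h Qᴴ, Bq_add_left h Qᴴ, Bq_sub_right h _ Q, Bq_add_right h _ Q]
    ring
  have e4 : Bq h Qᴴ Q = - (h * Qᴴ * h * Q).trace := by
    unfold Bq
    rw [hE, mul_zero, zero_sub]
  have e5 : Bq h (a - b)ᴴ (a - b) =
      - (((nq h p * nq h t - ‖ip h p t‖ ^ 2 : ℝ) : ℂ) +
        ((nq h q * nq h t - ‖ip h q t‖ ^ 2 : ℝ) : ℂ)) := by
    rw [Matrix.conjTranspose_sub, ha, hb, vv_conjT, vv_conjT]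
    simp only [Bq_sub_left, Bq_sub_right, Bq_vv]
    rw [ip_self hh t, ip_self hh p, ip_self hh q, ← ip_conj hh p t, ← ip_conj hh q t]
    have k1 := Complex.mul_conj (ip h p t)
    have k2 := Complex.mul_conj (ip h q t)
    rw [Complex.normSq_eq_norm_sq] at k1 k2
    push_cast at k1 k2 ⊢
    linear_combination k1 + k2
  rw [e3, e4, e5]
  ring

theorem boch_re_le {h : Matrix (Fin n) (Fin n) ℂ} (hh : h.PosDef)
    (Am : Matrix (Fin n) (Fin n) ℂ) (t q p : Fin n → ℂ) (hE : (h * Qm Am t q p).trace = 0) :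
    (boch h Am t q p).re ≤ 0 := by
  rw [boch_expand hh.1 Am t q p hE]
  have h1 := (Complex.le_def.1 (hs_nonneg hh (Qm Am t q p)).1).1
  have h2 := cs_le hh p t
  have h3 := cs_le hh q t
  simp only [Complex.mul_re, Complex.add_re, Complex.ofReal_re, Complex.neg_re, Complex.neg_im,
    Complex.re_ofNat, Complex.im_ofNat, neg_zero, zero_mul, sub_zero, Complex.zero_re] at h1 ⊢
  linarith

theorem boch_eq {h : Matrix (Fin n) (Fin n) ℂ} (hh : h.PosDef)
    (Am : Matrix (Fin n) (Fin n) ℂ) (t q p : Fin n → ℂ) (hE : (h * Qm Am t q p).trace = 0)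
    (h0 : (boch h Am t q p).re = 0) :
    Qm Am t q p = 0 ∧ (∀ a b, t a * q b = t b * q a) ∧ ∀ a b, t a * p b = t b * p a := by
  rw [boch_expand hh.1 Am t q p hE] at h0
  have h1 := Complex.le_def.1 (hs_nonneg hh (Qm Am t q p)).1
  have h2 := cs_le hh p t
  have h3 := cs_le hh q t
  simp only [Complex.mul_re, Complex.add_re, Complex.ofReal_re, Complex.neg_re, Complex.neg_im,
    Complex.re_ofNat, Complex.im_ofNat, neg_zero, zero_mul, sub_zero, Complex.zero_re,
    Complex.zero_im] at h1 h0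
  refine ⟨(hs_nonneg hh _).2 (Complex.ext ?_ h1.2.symm), cs_eq hh (by linarith [h1.1]),
    cs_eq hh (by linarith [h1.1])⟩
  rw [Complex.zero_re]
  linarith [h1.1]

/-! ### Kato type inequalities -/


end

end Crest.Agent.X261.Har
end

-- ▼ part X261/Har/Stk
section

/-!
# X261, HAR (helper94), file Stk: twisted tensors and Stokes' formula

* `TnF`, `C10`, `C01`, `RF` : transformation laws with a scalar factor;
* `Tm β = ∂ β`, `tnF_Tm`;
* `stokesR` : `∫ tr (R ∂β) = 0` for a divergence free `R`;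
* `Pm g S` : the `(n-1,n-1)` form `S ∧ ω^{n-2}`; `div_Pm`.
-/

set_option autoImplicit false
set_option linter.unusedSectionVars false

open Set Filter Topology Complex
open scoped ContDiff Matrix ComplexConjugate ComplexOrder

namespace Crest.Agent.X261.Har

open Crest.Agent.R275 Crest.Agent.R275.Geo Crest.Agent.R275.Core144 Crest.Agent.R275.EDR890
open Crest.Agent.R275.SerG398 (dens)
open Crest.Agent.R275.OmT75 (dj dl dl_chain dl_mul db_chain dj_sum dj_congr)
open Crest.Agent.R273.Kah_333 Crest.Agent.R273.Vol_333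
open Crest.Agent.R273.StV_37 Crest.Agent.R273.Piola_5 Crest.Agent.R273.Green_5
open Crest.Agent.R273.VolInv_5 Crest.Agent.R273.GreenM_5

noncomputable section

variable {n : ℕ} {M : Type} [TopologicalSpace M] {A : Atl n M}

/-! ### calculus in a chart -/

theorem tend_symm {i : A.ι} {x : M} (hx : x ∈ (A.e i).source) :
    Tendsto (A.e i).symm (𝓝 (A.e i x)) (𝓝 x) := by
  have := (A.e i).continuousAt_symm ((A.e i).map_source hx)
  rwa [ContinuousAt, (A.e i).left_inv hx] at this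

theorem dl_congr {i : A.ι} {f g : M → ℂ} {x : M} (hx : x ∈ (A.e i).source) (h : f =ᶠ[𝓝 x] g)
    (a : Fin n) : dl A i a f x = dl A i a g x := dj_congr ((tend_symm hx).eventually h)

/-- differentiability at `x` in the chart `i` -/
def DA (A : Atl n M) (i : A.ι) (f : M → ℂ) (x : M) : Prop :=
  DifferentiableAt ℝ (fun z => f ((A.e i).symm z)) (A.e i x)

theorem da_of {i : A.ι} {f : M → ℂ} (hf : A.SmAt i f) {x : M} (hx : x ∈ (A.e i).source) :
    DA A i f x := Atl.SmAt.diffAt hf hx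

theorem da_ov {i j : A.ι} {f : M → ℂ} {x : M} (hx : x ∈ (A.e i).source ∩ (A.e j).source)
    (hf : DA A j f x) : DA A i f x := by
  unfold DA at hf ⊢
  rw [← OmT75.tr_val hx] at hf
  have h1 : DifferentiableAt ℝ (OmT75.tr A i j) (A.e i x) :=
    (OmT75.tr_diffAt (mem_ov hx)).restrictScalars ℝ
  exact (hf.comp (A.e i x) h1).congr_of_eventuallyEq (OmT75.read_eq f hx)

theorem DA.mul {i : A.ι} {f g : M → ℂ} {x : M} (hf : DA A i f x) (hg : DA A i g x) :
    DA A i (fun y => f y * g y) x := DifferentiableAt.mul hf hg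

theorem DA.add {i : A.ι} {f g : M → ℂ} {x : M} (hf : DA A i f x) (hg : DA A i g x) :
    DA A i (fun y => f y + g y) x := DifferentiableAt.add hf hg

theorem DA.sub {i : A.ι} {f g : M → ℂ} {x : M} (hf : DA A i f x) (hg : DA A i g x) :
    DA A i (fun y => f y - g y) x := DifferentiableAt.sub hf hg

theorem da_const {i : A.ι} (c : ℂ) {x : M} : DA A i (fun _ => c) x := differentiableAt_const _

theorem DA.conj {i : A.ι} {f : M → ℂ} {x : M} (hf : DA A i f x) :
    DA A i (fun y => conj (f y)) x :=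
  Complex.conjCLE.differentiableAt.comp (A.e i x) hf

theorem da_sum {i : A.ι} {σ : Type*} {s : Finset σ} {f : σ → M → ℂ} {x : M}
    (hf : ∀ k ∈ s, DA A i (f k) x) : DA A i (fun y => ∑ k ∈ s, f k y) x :=
  DifferentiableAt.fun_sum hf

theorem da_J {i j : A.ι} {x : M} (hx : x ∈ (A.e i).source ∩ (A.e j).source) (b a : Fin n) :
    DA A i (fun y => A.J i j y b a) x :=
  diffAt_of_ov (f := fun y => A.J i j y b a) (OmT75.J_smooth i j b a) hx

theorem dl_cst (i : A.ι) (a : Fin n) (c : ℂ) (x : M) : dl A i a (fun _ => c) x = 0 := by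
  unfold OmT75.dl
  rw [dj_eq_wd]
  exact wd_const _ _ _

theorem dlm {i : A.ι} {f g : M → ℂ} {x : M} (hf : DA A i f x) (hg : DA A i g x)
    (hx : x ∈ (A.e i).source) (a : Fin n) :
    dl A i a (fun y => f y * g y) x = dl A i a f x * g x + f x * dl A i a g x := dl_mul hf hg hx

theorem dlc {i j : A.ι} {f : M → ℂ} {x : M} (hf : DA A j f x)
    (hx : x ∈ (A.e i).source ∩ (A.e j).source) (a : Fin n) :
    dl A i a f x = ∑ b, A.J i j x b a * dl A j b f x := dl_chain hf hx a

theorem dl_add {i : A.ι} {f g : M → ℂ} {x : M} (hf : DA A i f x) (hg : DA A i g x) (a : Fin n) :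
    dl A i a (fun y => f y + g y) x = dl A i a f x + dl A i a g x := by
  unfold OmT75.dl
  rw [dj_eq_wd, dj_eq_wd, dj_eq_wd]
  exact wd_add hf hg _

theorem dl_cmul {i : A.ι} {f : M → ℂ} {x : M} (c : ℂ) (hf : DA A i f x) (a : Fin n) :
    dl A i a (fun y => c * f y) x = c * dl A i a f x := by
  unfold OmT75.dl
  rw [dj_eq_wd, dj_eq_wd]
  exact wd_const_smul c hf _

theorem dl_sub {i : A.ι} {f g : M → ℂ} {x : M} (hf : DA A i f x) (hg : DA A i g x) (a : Fin n) :
    dl A i a (fun y => f y - g y) x = dl A i a f x - dl A i a g x := by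
  have h1 : (fun y => f y - g y) = fun y => f y + (-1) * g y := by
    funext y; ring
  rw [h1, dl_add hf ((da_const _).mul hg), dl_cmul _ hg]
  ring

theorem dl_fsum {i : A.ι} {σ : Type*} {s : Finset σ} {f : σ → M → ℂ} {x : M}
    (hf : ∀ k ∈ s, DA A i (f k) x) (a : Fin n) :
    dl A i a (fun y => ∑ k ∈ s, f k y) x = ∑ k ∈ s, dl A i a (f k) x := by
  unfold OmT75.dl
  exact dj_sum hf

theorem db_eq_conj (i : A.ι) (a : Fin n) (f : M → ℂ) (x : M) :
    A.db i a f x = conj (dl A i a (fun y => conj (f y)) x) := by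
  rw [dl_conj, conj_conj]

theorem dl_dl_comm {i : A.ι} {f : M → ℂ} (hf : A.SmAt i f) {x : M} (hx : x ∈ (A.e i).source)
    (a b : Fin n) : dl A i a (dl A i b f) x = dl A i b (dl A i a f) x := by
  have hz := (A.e i).map_source hx
  have key : ∀ a b, dl A i a (dl A i b f) x =
      wd (false, a) (wd (false, b) (fun w => f ((A.e i).symm w))) (A.e i x) := by
    intro a b
    have h1 := dl_read (A := A) (dl A i b f) i a hz
    rw [(A.e i).left_inv hx] at h1
    rw [h1]
    apply wd_congr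
    filter_upwards [(A.e i).open_target.mem_nhds hz] with w hw
    exact dl_read f i b hw
  rw [key, key]
  exact wd_comm (ContDiffOn.contDiffAt hf ((A.e i).open_target.mem_nhds hz)) _ _

theorem db_dl_comm {i : A.ι} {f : M → ℂ} (hf : A.SmAt i f) {x : M} (hx : x ∈ (A.e i).source)
    (a b : Fin n) : A.db i b (dl A i a f) x = dl A i a (A.db i b f) x := by
  have hz := (A.e i).map_source hx
  have h1 := hm_read (A := A) f i hz a b
  rw [(A.e i).left_inv hx, hm_apply] at h1
  have h2 := db_read (A := A) (dl A i a f) i b hz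
  rw [(A.e i).left_inv hx] at h2
  rw [h1, h2, wd_comm (ContDiffOn.contDiffAt hf ((A.e i).open_target.mem_nhds hz))]
  apply wd_congr
  filter_upwards [(A.e i).open_target.mem_nhds hz] with w hw
  exact dl_read f i a hw

theorem hm_conj {i : A.ι} {f : M → ℂ} (hf : A.SmAt i f) {x : M} (hx : x ∈ (A.e i).source) :
    hm A (fun y => conj (f y)) i x = (hm A f i x)ᴴ := by
  ext a b
  rw [Matrix.conjTranspose_apply, hm_apply, hm_apply]
  have h1 : A.db i b (fun y => conj (f y)) = fun y => conj (dl A i b f y) := by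
    funext y; exact db_conj i b f y
  rw [h1, dl_conj, db_dl_comm hf hx]
  rfl

theorem dl_hm_comm {i : A.ι} {f : M → ℂ} (hf : A.SmAt i f) {x : M} (hx : x ∈ (A.e i).source)
    (a b c : Fin n) :
    dl A i c (fun y => hm A f i y a b) x = dl A i a (fun y => hm A f i y c b) x :=
  dl_dl_comm (hf.db b) hx c a

/-! ### twisted transformation laws -/

/-- `(1,1)` tensors with a factor -/
def TnF (A : Atl n M) (l : A.ι → A.ι → M → ℂ) (S : A.ι → M → Matrix (Fin n) (Fin n) ℂ) : Prop :=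
  ∀ i j, ∀ x ∈ (A.e i).source ∩ (A.e j).source,
    S i x = l i j x • ((Jm A i j x)ᵀ * S j x * (Jm A i j x).map conj)

/-- `(1,0)` forms with a factor -/
def C10 (A : Atl n M) (l : A.ι → A.ι → M → ℂ) (p : A.ι → M → Fin n → ℂ) : Prop :=
  ∀ i j, ∀ x ∈ (A.e i).source ∩ (A.e j).source, p i x = l i j x • ((Jm A i j x)ᵀ *ᵥ p j x)

/-- `(0,1)` forms with a factor -/
def C01 (A : Atl n M) (l : A.ι → A.ι → M → ℂ) (p : A.ι → M → Fin n → ℂ) : Prop :=
  ∀ i j, ∀ x ∈ (A.e i).source ∩ (A.e j).source,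
    p i x = l i j x • (((Jm A i j x).map conj)ᵀ *ᵥ p j x)

/-- `(n-1,n-1)` forms with a factor -/
def RF (A : Atl n M) (l : A.ι → A.ι → M → ℂ) (R : A.ι → M → Matrix (Fin n) (Fin n) ℂ) : Prop :=
  ∀ i j, ∀ x ∈ (A.e i).source ∩ (A.e j).source,
    (Jm A i j x).map conj * R i x * (Jm A i j x)ᵀ = (l i j x * dens A i j x) • R j x

variable {l m : A.ι → A.ι → M → ℂ}

theorem C10.cj {p : A.ι → M → Fin n → ℂ} (h : C10 A l p) :
    C01 A (fun i j x => conj (l i j x)) (fun i x => star (p i x)) := by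
  intro i j x hx
  change star (p i x) = _
  rw [h i j x hx]
  funext a
  simp [Matrix.mulVec, dotProduct]

theorem TnF.sub {S T : A.ι → M → Matrix (Fin n) (Fin n) ℂ} (h : TnF A l S) (h' : TnF A l T) :
    TnF A l (fun i x => S i x - T i x) := by
  intro i j x hx
  change S i x - T i x = _
  rw [h i j x hx, h' i j x hx, Matrix.mul_sub, Matrix.sub_mul, smul_sub]

theorem TnF.smul {S : A.ι → M → Matrix (Fin n) (Fin n) ℂ} (h : TnF A l S) (c : ℂ) :
    TnF A l (fun i x => c • S i x) := by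
  intro i j x hx
  change c • S i x = _
  rw [h i j x hx, Matrix.mul_smul, Matrix.smul_mul, smul_comm]

theorem TnF.congr {S : A.ι → M → Matrix (Fin n) (Fin n) ℂ} (h : TnF A l S)
    (e : ∀ i j, ∀ x ∈ (A.e i).source ∩ (A.e j).source, l i j x = m i j x) : TnF A m S :=
  fun i j x hx => by rw [← e i j x hx]; exact h i j x hx

theorem tnF_vv {p q : A.ι → M → Fin n → ℂ} (hp : C10 A l p) (hq : C01 A m q) :
    TnF A (fun i j x => l i j x * m i j x) (fun i x => Matrix.vecMulVec (p i x) (q i x)) := by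
  intro i j x hx
  change Matrix.vecMulVec (p i x) (q i x) = _
  rw [hp i j x hx, hq i j x hx, Matrix.mul_vecMulVec, Matrix.vecMulVec_mul,
    ← Matrix.mulVec_transpose]
  ext a b
  simp only [Matrix.vecMulVec_apply, Pi.smul_apply, Matrix.smul_apply, smul_eq_mul]
  ring

theorem dn_tr {R S : A.ι → M → Matrix (Fin n) (Fin n) ℂ} (hR : RF A l R) (hS : TnF A m S)
    (e : ∀ i j, ∀ x ∈ (A.e i).source ∩ (A.e j).source, l i j x * m i j x = 1) :
    Dn A (fun i x => (R i x * S i x).trace) := by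
  intro i j x hx
  change (R i x * S i x).trace = dens A i j x * (R j x * S j x).trace
  rw [hS i j x hx, Matrix.mul_smul, Matrix.trace_smul,
    show R i x * ((Jm A i j x)ᵀ * S j x * (Jm A i j x).map conj) =
      (R i x * (Jm A i j x)ᵀ * S j x) * (Jm A i j x).map conj by simp only [Matrix.mul_assoc],
    Matrix.trace_mul_comm,
    show (Jm A i j x).map conj * (R i x * (Jm A i j x)ᵀ * S j x) =
      ((Jm A i j x).map conj * R i x * (Jm A i j x)ᵀ) * S j x by simp only [Matrix.mul_assoc],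
    hR i j x hx, Matrix.smul_mul, Matrix.trace_smul, smul_eq_mul, smul_eq_mul]
  linear_combination (dens A i j x * (R j x * S j x).trace) * e i j x hx

/-- `∂ β` -/
def Tm (A : Atl n M) (β : A.ι → M → Fin n → ℂ) (i : A.ι) (x : M) : Matrix (Fin n) (Fin n) ℂ :=
  Matrix.of fun a b => dl A i a (fun y => β i y b) x

theorem Tm_apply (β : A.ι → M → Fin n → ℂ) (i : A.ι) (x : M) (a b : Fin n) :
    Tm A β i x a b = dl A i a (fun y => β i y b) x := rfl

theorem tnF_Tm {c : A.ι → A.ι → ℂ} {β : A.ι → M → Fin n → ℂ}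
    (hs : ∀ i b, A.SmAt i (fun y => β i y b)) (h : C01 A (fun i j _ => c i j) β) :
    TnF A (fun i j _ => c i j) (Tm A β) := by
  intro i j x hx
  ext a b
  have hO : (A.e i).source ∩ (A.e j).source ∈ 𝓝 x :=
    ((A.e i).open_source.inter (A.e j).open_source).mem_nhds hx
  have h1 : (fun y => β i y b) =ᶠ[𝓝 x]
      fun y => c i j * ∑ d, conj (A.J i j y d b) * β j y d := by
    filter_upwards [hO] with y hy
    rw [h i j y hy]
    simp [Matrix.mulVec, dotProduct]
  have hβ : ∀ d, DA A i (fun y => β j y d) x := fun d => da_ov hx (da_of (hs j d) hx.2)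
  have hJ : ∀ d, DA A i (fun y => conj (A.J i j y d b)) x := fun d => (da_J hx d b).conj
  rw [Tm_apply, dl_congr hx.1 h1, dl_cmul _ (da_sum fun d _ => (hJ d).mul (hβ d)),
    dl_fsum fun d _ => (hJ d).mul (hβ d)]
  simp only [Matrix.smul_apply, smul_eq_mul, Matrix.mul_apply, Matrix.transpose_apply,
    Matrix.map_apply, Jm_apply, Tm_apply]
  congr 1
  refine Finset.sum_congr rfl fun d _ => ?_
  rw [dlm (hJ d) (hβ d) hx.1, dl_conj, OmT75.db_J i j hx, map_zero, zero_mul, zero_add,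
    dlc (da_of (hs j d) hx.2) hx a, mul_comm]

theorem rf_adj {g : A.ι → M → Matrix (Fin n) (Fin n) ℂ} (hg : Tn A g) :
    RF A (fun _ _ _ => 1) (fun i x => (g i x).adjugate) := by
  intro i j x hx
  change _ * (g i x).adjugate * _ = (1 * dens A i j x) • (g j x).adjugate
  rw [hg i j x hx, Matrix.adjugate_mul_distrib, Matrix.adjugate_mul_distrib, one_mul]
  calc ((Jm A i j x).map conj) * (((Jm A i j x).map conj).adjugate * ((g j x).adjugate *
        (Jm A i j x)ᵀ.adjugate)) * (Jm A i j x)ᵀ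
      = (((Jm A i j x).map conj) * ((Jm A i j x).map conj).adjugate) * ((g j x).adjugate *
        ((Jm A i j x)ᵀ.adjugate * (Jm A i j x)ᵀ)) := by
        simp only [Matrix.mul_assoc]
    _ = dens A i j x • (g j x).adjugate := by
        rw [Matrix.mul_adjugate, Matrix.adjugate_mul, det_map_conj, Matrix.det_transpose,
          Matrix.smul_mul, Matrix.one_mul, Matrix.mul_smul, Matrix.mul_one, smul_smul, dens_Jm,
          mul_comm]

/-- divergence free fields -/
def Dv0 (A : Atl n M) (R : A.ι → M → Matrix (Fin n) (Fin n) ℂ) : Prop :=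
  ∀ i, ∀ x ∈ (A.e i).source, ∀ b, ∑ a, dl A i a (fun y => R i y b a) x = 0

theorem dv0_adj {g : A.ι → M → Matrix (Fin n) (Fin n) ℂ} (hg : CF A g) :
    Dv0 A (fun i x => (g i x).adjugate) := by
  intro i x hx b
  have hz := (A.e i).map_source hx
  have := piola (m := fun w => g i ((A.e i).symm w)) (z := A.e i x)
    (fun a c => hg.diffAt hz a c) (fun a c d => hg.closed i _ hz a c d) b
  rw [← this]
  refine Finset.sum_congr rfl fun a _ => ?_
  have e := dl_read (A := A) (fun y => (g i y).adjugate b a) i a hz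
  rw [(A.e i).left_inv hx] at e
  exact e

theorem smAt_mm {i : A.ι} {R S : M → Matrix (Fin n) (Fin n) ℂ}
    (hR : ∀ a b, A.SmAt i (fun y => R y a b)) (hS : ∀ a b, A.SmAt i (fun y => S y a b))
    (a b : Fin n) : A.SmAt i (fun y => (R y * S y) a b) := by
  simp only [Matrix.mul_apply]
  exact ContDiffOn.sum fun c _ => (hR a c).mul (hS c b)

theorem smAt_trace {i : A.ι} {R : M → Matrix (Fin n) (Fin n) ℂ}
    (hR : ∀ a b, A.SmAt i (fun y => R y a b)) : A.SmAt i (fun y => (R y).trace) := by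
  simp only [Matrix.trace, Matrix.diag]
  exact ContDiffOn.sum fun c _ => hR c c

theorem smAt_Tm {β : A.ι → M → Fin n → ℂ} {i : A.ι} (hs : ∀ b, A.SmAt i (fun y => β i y b))
    (a b : Fin n) : A.SmAt i (fun y => Tm A β i y a b) := smAt_dl (hs b) a

/-- **Stokes** : `∫ tr (R ∂β) = 0` -/
theorem stokesR [T2Space M] [CompactSpace M] (P : Part A)
    {R : A.ι → M → Matrix (Fin n) (Fin n) ℂ} {β : A.ι → M → Fin n → ℂ}
    (hRs : ∀ i a b, A.SmAt i (fun y => R i y a b)) (hs : ∀ i b, A.SmAt i (fun y => β i y b))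
    (hR : RF A l R) (hβ : C01 A m β)
    (e : ∀ i j, ∀ x ∈ (A.e i).source ∩ (A.e j).source, l i j x * m i j x = 1) (hd : Dv0 A R) :
    totc P (fun i x => (R i x * Tm A β i x).trace) = 0 := by
  have hV : V10 A (fun i x a => ∑ b, R i x b a * β i x b) := by
    refine ⟨fun i a => ContDiffOn.sum fun b _ => (hRs i b a).mul (hs i b), fun i j x hx d => ?_⟩
    have h1 : ∀ k, (fun a => ∑ b, R k x b a * β k x b) = (R k x)ᵀ *ᵥ β k x := fun k => rfl
    have h2 : Jm A i j x *ᵥ ((R i x)ᵀ *ᵥ β i x) = dens A i j x • ((R j x)ᵀ *ᵥ β j x) := by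
      have h3 := congrArg Matrix.transpose (hR i j x hx)
      rw [Matrix.transpose_mul, Matrix.transpose_mul, Matrix.transpose_transpose,
        Matrix.transpose_smul] at h3
      rw [hβ i j x hx, Matrix.mulVec_smul, Matrix.mulVec_smul, Matrix.mulVec_mulVec,
        Matrix.mulVec_mulVec, Matrix.mul_assoc, h3, Matrix.smul_mulVec, smul_smul]
      congr 1
      linear_combination dens A i j x * e i j x hx
    exact congrFun h2 d
  rw [← stokes10c P hV]
  refine totc_congr P fun i x hx => ?_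
  have h1 : ∀ a, dl A i a (fun y => ∑ b, R i y b a * β i y b) x =
      ∑ b, (dl A i a (fun y => R i y b a) x * β i x b + R i x b a * Tm A β i x a b) := by
    intro a
    rw [dl_fsum fun b _ => (da_of (hRs i b a) hx).mul (da_of (hs i b) hx)]
    refine Finset.sum_congr rfl fun b _ => ?_
    rw [dlm (da_of (hRs i b a) hx) (da_of (hs i b) hx) hx]
    rfl
  simp only [h1]
  rw [Finset.sum_comm]
  simp only [Finset.sum_add_distrib, ← Finset.sum_mul, hd i x hx, zero_mul, zero_add]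
  rfl

/-! ### the form `S ∧ ω^{n-2}` -/

/-- `S ∧ ω^{n-2}` -/
def Pm (g S : Matrix (Fin n) (Fin n) ℂ) : Matrix (Fin n) (Fin n) ℂ :=
  (g⁻¹ * S).trace • g.adjugate - g⁻¹ * S * g.adjugate

theorem adj_eq {g : Matrix (Fin n) (Fin n) ℂ} (hg : g.det ≠ 0) : g.adjugate = g.det • g⁻¹ := by
  rw [Matrix.inv_def, smul_smul, Ring.mul_inverse_cancel _ (isUnit_iff_ne_zero.2 hg), one_smul]

theorem trace_Pm {g : Matrix (Fin n) (Fin n) ℂ} (hg : g.det ≠ 0)
    (S T : Matrix (Fin n) (Fin n) ℂ) : (Pm g S * T).trace = g.det * Bq g⁻¹ S T := by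
  unfold Pm Bq
  rw [adj_eq hg]
  simp only [Matrix.sub_mul, Matrix.smul_mul, Matrix.mul_smul, Matrix.trace_sub,
    Matrix.trace_smul, smul_eq_mul]
  ring

theorem smAt_inv (K : Kah A) (i : A.ι) (a b : Fin n) : A.SmAt i (fun y => (K.g i y)⁻¹ a b) := by
  have h3 : ContDiffOn ℝ ∞ (fun z => (K.g i ((A.e i).symm z)).det) (A.e i).target :=
    smAt_det (K.sm i)
  have h1 := (h3.inv fun z hz => K_det_ne K ((A.e i).map_target hz)).mul
    (smAt_adj (kah_cf K) i b a)
  refine h1.congr fun z hz => ?_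
  have hd := K_det_ne K ((A.e i).map_target hz)
  change (K.g i ((A.e i).symm z))⁻¹ a b = _ * (K.g i ((A.e i).symm z)).adjugate a b
  rw [adj_eq hd, Matrix.smul_apply, smul_eq_mul]
  simp only [Pi.inv_apply]
  field_simp

theorem smAt_Pm (K : Kah A) {i : A.ι} {S : M → Matrix (Fin n) (Fin n) ℂ}
    (hS : ∀ a b, A.SmAt i (fun y => S y a b)) (a b : Fin n) :
    A.SmAt i (fun y => Pm (K.g i y) (S y) a b) := by
  have hN := smAt_mm (smAt_inv K i) hS
  have hA : ∀ a b, A.SmAt i (fun y => (K.g i y).adjugate a b) := fun a b =>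
    smAt_adj (kah_cf K) i b a
  exact ((smAt_trace hN).mul (hA a b)).sub (smAt_mm hN hA a b)

theorem rf_Pm (K : Kah A) {S : A.ι → M → Matrix (Fin n) (Fin n) ℂ} (hS : TnF A l S) :
    RF A l (fun i x => Pm (K.g i x) (S i x)) := by
  intro i j x hx
  have h0 := rf_adj (K_tn K) i j x hx
  set J := Jm A i j x with hJ
  have hJd : J.det ≠ 0 := Jm_det_ne hx
  have hJu : IsUnit J.det := isUnit_iff_ne_zero.2 hJd
  have hJt : IsUnit Jᵀ.det := by rw [Matrix.det_transpose]; exact hJu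
  have hJc : IsUnit (J.map conj).det := by
    rw [det_map_conj, isUnit_iff_ne_zero]
    exact (map_ne_zero _).2 hJd
  have h1 : (K.g i x)⁻¹ * S i x =
      l i j x • ((J.map conj)⁻¹ * ((K.g j x)⁻¹ * S j x) * J.map conj) := by
    rw [K.tr i j x hx, hS i j x hx, ← hJ, Matrix.mul_inv_rev, Matrix.mul_inv_rev, Matrix.mul_smul]
    congr 1
    calc (J.map conj)⁻¹ * ((K.g j x)⁻¹ * Jᵀ⁻¹) * (Jᵀ * S j x * J.map conj)
        = (J.map conj)⁻¹ * ((K.g j x)⁻¹ * ((Jᵀ⁻¹ * Jᵀ) * S j x)) * J.map conj := by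
          simp only [Matrix.mul_assoc]
      _ = _ := by rw [Matrix.nonsing_inv_mul _ hJt, Matrix.one_mul]
  have h2 : ((J.map conj)⁻¹ * ((K.g j x)⁻¹ * S j x) * J.map conj).trace =
      ((K.g j x)⁻¹ * S j x).trace := by
    rw [Matrix.trace_mul_comm, ← Matrix.mul_assoc, Matrix.mul_nonsing_inv _ hJc, Matrix.one_mul]
  change J.map conj * Pm (K.g i x) (S i x) * Jᵀ = _ • Pm (K.g j x) (S j x)
  change J.map conj * (K.g i x).adjugate * Jᵀ = (1 * dens A i j x) • (K.g j x).adjugate at h0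
  unfold Pm
  rw [h1, Matrix.trace_smul, h2, Matrix.mul_sub, Matrix.sub_mul, Matrix.mul_smul, Matrix.smul_mul,
    h0, Matrix.smul_mul, Matrix.mul_smul, Matrix.smul_mul]
  have h3 : J.map conj * ((J.map conj)⁻¹ * ((K.g j x)⁻¹ * S j x) * J.map conj *
      (K.g i x).adjugate) * Jᵀ = (J.map conj * (J.map conj)⁻¹) * ((K.g j x)⁻¹ * S j x) *
        (J.map conj * (K.g i x).adjugate * Jᵀ) := by simp only [Matrix.mul_assoc]
  rw [h3, h0, Matrix.mul_nonsing_inv _ hJc, Matrix.one_mul, Matrix.mul_smul, smul_sub, smul_smul,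
    smul_smul, smul_smul, smul_eq_mul]
  congr 2 <;> ring

theorem sym_sum (h : Matrix (Fin n) (Fin n) ℂ) (T : Fin n → Fin n → Fin n → ℂ)
    (hT : ∀ a c d, T a c d = T c a d) (b : Fin n) :
    ∑ a, (∑ d, ∑ c, h d c * T a c d) * h b a = ∑ a, ∑ d, (∑ c, h b c * T a c d) * h d a := by
  have e1 : ∑ a, (∑ d, ∑ c, h d c * T a c d) * h b a =
      ∑ d, ∑ a, ∑ c, h d c * T a c d * h b a := by
    rw [Finset.sum_comm]
    refine Finset.sum_congr rfl fun a _ => ?_
    simp only [Finset.sum_mul]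
  have e2 : ∑ a, ∑ d, (∑ c, h b c * T a c d) * h d a =
      ∑ d, ∑ c, ∑ a, h b c * T a c d * h d a := by
    rw [Finset.sum_comm]
    refine Finset.sum_congr rfl fun d _ => ?_
    rw [Finset.sum_comm]
    simp only [Finset.sum_mul]
  rw [e1, e2]
  refine Finset.sum_congr rfl fun d _ => Finset.sum_congr rfl fun a _ =>
    Finset.sum_congr rfl fun c _ => ?_
  rw [hT c a d]
  ring

theorem dl_K (K : Kah A) {i : A.ι} {x : M} (hx : x ∈ (A.e i).source) (a b c : Fin n) :
    dl A i c (fun y => K.g i y a b) x = dl A i a (fun y => K.g i y c b) x := by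
  have hz := (A.e i).map_source hx
  have e1 := dl_read (A := A) (fun y => K.g i y a b) i c hz
  have e2 := dl_read (A := A) (fun y => K.g i y c b) i a hz
  rw [(A.e i).left_inv hx] at e1 e2
  rw [e1, e2]
  exact K.closed i _ hz a b c

theorem dv0_Pm (K : Kah A) {S : A.ι → M → Matrix (Fin n) (Fin n) ℂ}
    (hS : ∀ i a b, A.SmAt i (fun y => S i y a b))
    (hc : ∀ i, ∀ x ∈ (A.e i).source, ∀ a b c,
      dl A i c (fun y => S i y a b) x = dl A i a (fun y => S i y c b) x) :
    Dv0 A (fun i x => Pm (K.g i x) (S i x)) := by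
  intro i x hx b
  set N : M → Matrix (Fin n) (Fin n) ℂ := fun y => (K.g i y)⁻¹ * S i y with hN
  have hNs : ∀ a b, A.SmAt i (fun y => N y a b) := smAt_mm (smAt_inv K i) (hS i)
  have hA : ∀ a b, A.SmAt i (fun y => (K.g i y).adjugate a b) := fun a b =>
    smAt_adj (kah_cf K) i b a
  have hd := dv0_adj (kah_cf K) i x hx
  set T : Fin n → Fin n → Fin n → ℂ := fun a c d =>
    ∑ e, K.g i x c e * dl A i a (fun y => N y e d) x with hT
  have hT1 : ∀ a c d, T a c d = dl A i a (fun y => S i y c d) x -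
      ∑ e, dl A i a (fun y => K.g i y c e) x * N x e d := by
    intro a c d
    have h1 : (fun y => S i y c d) =ᶠ[𝓝 x] fun y => ∑ e, K.g i y c e * N y e d := by
      filter_upwards [(A.e i).open_source.mem_nhds hx] with y hy
      have : K.g i y * N y = S i y := by
        rw [hN, ← Matrix.mul_assoc,
          Matrix.mul_nonsing_inv _ (isUnit_iff_ne_zero.2 (K_det_ne K hy)), Matrix.one_mul]
      rw [← this, Matrix.mul_apply]
    rw [dl_congr hx h1, dl_fsum fun e _ => (da_of (K.sm i c e) hx).mul (da_of (hNs e d) hx),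
      ← Finset.sum_sub_distrib]
    refine Finset.sum_congr rfl fun e _ => ?_
    rw [dlm (da_of (K.sm i c e) hx) (da_of (hNs e d) hx) hx]
    ring
  have hTs : ∀ a c d, T a c d = T c a d := by
    intro a c d
    rw [hT1, hT1, hc i x hx c d a]
    congr 1
    exact Finset.sum_congr rfl fun e _ => by rw [dl_K K hx c e a]
  have hD : ∀ a c d, dl A i a (fun y => N y c d) x = ∑ e, (K.g i x)⁻¹ c e * T a e d := by
    intro a c d
    have h1 := Matrix.nonsing_inv_mul _ (isUnit_iff_ne_zero.2 (K_det_ne K hx))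
    have h2 : ∑ e, (K.g i x)⁻¹ c e * T a e d =
        ∑ f, ((K.g i x)⁻¹ * K.g i x) c f * dl A i a (fun y => N y f d) x := by
      simp only [hT, Matrix.mul_apply, Finset.mul_sum, Finset.sum_mul]
      rw [Finset.sum_comm]
      exact Finset.sum_congr rfl fun f _ => Finset.sum_congr rfl fun e _ => by ring
    rw [h2, h1]
    simp [Matrix.one_apply]
  have h1 : ∀ a, dl A i a (fun y => Pm (K.g i y) (S i y) b a) x =
      ((∑ d, dl A i a (fun y => N y d d) x) * (K.g i x).adjugate b a -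
        ∑ d, dl A i a (fun y => N y b d) x * (K.g i x).adjugate d a) +
      ((N x).trace * dl A i a (fun y => (K.g i y).adjugate b a) x -
        ∑ d, N x b d * dl A i a (fun y => (K.g i y).adjugate d a) x) := by
    intro a
    have e : (fun y => Pm (K.g i y) (S i y) b a) = fun y =>
        (∑ d, N y d d) * (K.g i y).adjugate b a - ∑ d, N y b d * (K.g i y).adjugate d a := rfl
    have s1 : DA A i (fun y => ∑ d, N y d d) x := da_sum fun d _ => da_of (hNs d d) hx
    rw [e, dl_sub (s1.mul (da_of (hA b a) hx))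
      (da_sum fun d _ => (da_of (hNs b d) hx).mul (da_of (hA d a) hx)),
      dlm s1 (da_of (hA b a) hx) hx, dl_fsum fun d _ => da_of (hNs d d) hx,
      dl_fsum fun d _ => (da_of (hNs b d) hx).mul (da_of (hA d a) hx),
      Finset.sum_congr rfl fun d _ => dlm (da_of (hNs b d) hx) (da_of (hA d a) hx) hx a,
      Finset.sum_add_distrib]
    change _ = _ + ((∑ d, N x d d) * _ - _)
    ring
  simp only [h1]
  rw [Finset.sum_add_distrib, Finset.sum_sub_distrib, Finset.sum_sub_distrib, ← Finset.mul_sum,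
    hd b, Finset.sum_comm (f := fun a d => N x b d * _)]
  simp only [← Finset.mul_sum, hd, mul_zero, Finset.sum_const_zero, sub_zero, add_zero, hD]
  rw [adj_eq (K_det_ne K hx)]
  simp only [Matrix.smul_apply, smul_eq_mul]
  have h2 := sym_sum (K.g i x)⁻¹ T hTs b
  have h3 : ∀ (u v : ℂ), u * ((K.g i x).det * v) = (K.g i x).det * (u * v) := fun u v => by ring
  simp only [h3, ← Finset.mul_sum]
  rw [h2, sub_self]

end

end Crest.Agent.X261.Har
end

-- ▼ part X261/Har/Boch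

/-!
# X261, HAR (helper94), file Boch: the Bochner identity for twisted harmonic functions

* `Wt A`      : local pluriharmonic weights `u i`, differing by constants;
* `Aff A c v` : `v i = c i j * v j + const` locally on the overlaps; `SecC A c w` : `w i = c i j * w j`;
* `bochner`   : if `div (e^{-2u} ∇ v) = 0` then `Q = 0`, `θ ∧ ∂v = 0`, `θ ∧ ∂ v̄ = 0`;
* `dn_zero`   : a density with a sign and integral zero vanishes.
-/

set_option autoImplicit false
set_option linter.unusedSectionVars false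

open Set Filter Topology Complex MeasureTheory
open scoped ContDiff Matrix ComplexConjugate ComplexOrder

namespace Crest.Agent.X261.Har

open Crest.Agent.R275 Crest.Agent.R275.Geo Crest.Agent.R275.Core144 Crest.Agent.R275.EDR890
open Crest.Agent.R275.SerG398 (dens)
open Crest.Agent.R275.C1d194 (smAt_ofReal)
open Crest.Agent.R275.OmT75 (dj dl db_chain)
open Crest.Agent.R273.Kah_333 Crest.Agent.R273.Vol_333 Crest.Agent.R273.Vm_333
open Crest.Agent.R273.StV_37 Crest.Agent.R273.Green_5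
open Crest.Agent.R273.VolInv_5 Crest.Agent.R273.GreenM_5

noncomputable section

variable {n : ℕ} {M : Type} [TopologicalSpace M] {A : Atl n M}

/-- local pluriharmonic weights -/
structure Wt (A : Atl n M) where
  u : A.ι → M → ℝ
  sm : ∀ i, A.SmAt i (u i)
  tr : ∀ i j, ∃ k : ℝ, ∀ x ∈ (A.e i).source ∩ (A.e j).source, u i x = u j x + k
  ph : ∀ i, ∀ x ∈ (A.e i).source, hm A (fun y => (u i y : ℂ)) i x = 0

/-- affine families -/
structure Aff (A : Atl n M) (c : A.ι → A.ι → ℂ) (v : A.ι → M → ℂ) : Prop where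
  sm : ∀ i, A.SmAt i (v i)
  tr : ∀ i j, ∀ x ∈ (A.e i).source ∩ (A.e j).source, ∃ b : ℂ,
    ∀ᶠ y in 𝓝 x, v i y = c i j * v j y + b

/-- sections -/
structure SecC (A : Atl n M) (c : A.ι → A.ι → ℂ) (w : A.ι → M → ℂ) : Prop where
  sm : ∀ i, A.SmAt i (w i)
  tr : ∀ i j, ∀ x ∈ (A.e i).source ∩ (A.e j).source, w i x = c i j * w j x

variable {c c' : A.ι → A.ι → ℂ} {v v' w : A.ι → M → ℂ}

theorem ov_nhds {i j : A.ι} {x : M} (hx : x ∈ (A.e i).source ∩ (A.e j).source) :
    (A.e i).source ∩ (A.e j).source ∈ 𝓝 x :=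
  ((A.e i).open_source.inter (A.e j).open_source).mem_nhds hx

theorem aff_of (hs : ∀ i, A.SmAt i (v i))
    (h : ∀ i j, ∃ b : ℂ, ∀ x ∈ (A.e i).source ∩ (A.e j).source, v i x = c i j * v j x + b) :
    Aff A c v := by
  refine ⟨hs, fun i j x hx => ?_⟩
  obtain ⟨b, hb⟩ := h i j
  exact ⟨b, by filter_upwards [ov_nhds hx] with y hy using hb y hy⟩

theorem SecC.aff (h : SecC A c w) : Aff A c w :=
  aff_of h.sm fun i j => ⟨0, fun x hx => by rw [h.tr i j x hx, add_zero]⟩

theorem Aff.cj (h : Aff A c v) :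
    Aff A (fun i j => conj (c i j)) (fun i y => conj (v i y)) := by
  refine ⟨fun i => smAt_conj (h.sm i), fun i j x hx => ?_⟩
  obtain ⟨b, hb⟩ := h.tr i j x hx
  exact ⟨conj b, by filter_upwards [hb] with y hy; rw [hy, map_add, map_mul]⟩

theorem SecC.cj (h : SecC A c w) :
    SecC A (fun i j => conj (c i j)) (fun i y => conj (w i y)) :=
  ⟨fun i => smAt_conj (h.sm i), fun i j x hx => by rw [h.tr i j x hx, map_mul]⟩

theorem Aff.add (h : Aff A c v) (h' : Aff A c v') : Aff A c (fun i y => v i y + v' i y) := by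
  refine ⟨fun i => (h.sm i).add (h'.sm i), fun i j x hx => ?_⟩
  obtain ⟨b, hb⟩ := h.tr i j x hx
  obtain ⟨b', hb'⟩ := h'.tr i j x hx
  exact ⟨b + b', by filter_upwards [hb, hb'] with y hy hy'; rw [hy, hy']; ring⟩

/-- `∂ v` -/
def dv (A : Atl n M) (v : A.ι → M → ℂ) (i : A.ι) (x : M) : Fin n → ℂ := fun a => dl A i a (v i) x

/-- `∂ v̄` -/
def pv (A : Atl n M) (v : A.ι → M → ℂ) (i : A.ι) (x : M) : Fin n → ℂ :=
  fun a => dl A i a (fun y => conj (v i y)) x

/-- `∂∂̄ v` -/
def Hv (A : Atl n M) (v : A.ι → M → ℂ) (i : A.ι) (x : M) : Matrix (Fin n) (Fin n) ℂ :=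
  hm A (v i) i x

theorem star_pv (v : A.ι → M → ℂ) (i : A.ι) (x : M) (b : Fin n) :
    star (pv A v i x) b = A.db i b (v i) x := (db_eq_conj i b (v i) x).symm

theorem pv_cj (v : A.ι → M → ℂ) : pv A (fun i y => conj (v i y)) = dv A v := by
  funext i x a
  simp only [pv, dv, conj_conj]

theorem dv_cj (v : A.ι → M → ℂ) : dv A (fun i y => conj (v i y)) = pv A v := rfl

theorem Aff.c10 (h : Aff A c v) : C10 A (fun i j _ => c i j) (dv A v) := by
  intro i j x hx
  obtain ⟨b, hb⟩ := h.tr i j x hx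
  have h1 : v i =ᶠ[𝓝 x] fun y => c i j * v j y + b := hb
  have hd := da_ov hx (da_of (h.sm j) hx.2)
  funext a
  change dl A i a (v i) x = c i j * ∑ d, A.J i j x d a * dl A j d (v j) x
  rw [dl_congr hx.1 h1, dl_add ((da_const _).mul hd) (da_const _), dl_cmul _ hd, dl_cst,
    add_zero, dlc (da_of (h.sm j) hx.2) hx]

theorem Aff.c01 (h : Aff A c v) :
    C01 A (fun i j _ => c i j) (fun i x => star (pv A v i x)) := by
  have := h.cj.c10.cj
  simpa only [conj_conj, dv_cj] using this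

theorem Hv_eq (v : A.ι → M → ℂ) : Hv A v = Tm A (fun i x => star (pv A v i x)) := by
  funext i x
  ext a b
  rw [Tm_apply]
  simp only [star_pv]
  rfl

theorem smAt_dv (h : ∀ i, A.SmAt i (v i)) (i : A.ι) (a : Fin n) :
    A.SmAt i (fun y => dv A v i y a) := smAt_dl (h i) a

theorem smAt_pv (h : ∀ i, A.SmAt i (v i)) (i : A.ι) (a : Fin n) :
    A.SmAt i (fun y => pv A v i y a) := smAt_dl (smAt_conj (h i)) a

theorem smAt_spv (h : ∀ i, A.SmAt i (v i)) (i : A.ι) (a : Fin n) :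
    A.SmAt i (fun y => star (pv A v i y) a) := smAt_conj (smAt_pv h i a)

theorem smAt_Hv (h : ∀ i, A.SmAt i (v i)) (i : A.ι) (a b : Fin n) :
    A.SmAt i (fun y => Hv A v i y a b) := smAt_hm (h i) a b

theorem Aff.tnF (h : Aff A c v) : TnF A (fun i j _ => c i j) (Hv A v) := by
  rw [Hv_eq]
  exact tnF_Tm (smAt_spv h.sm) h.c01

theorem Hv_cj (h : ∀ i, A.SmAt i (v i)) {i : A.ι} {x : M} (hx : x ∈ (A.e i).source) :
    Hv A (fun i y => conj (v i y)) i x = (Hv A v i x)ᴴ := hm_conj (h i) hx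

namespace Wt

variable (W : Wt A)

/-- the weights as complex functions -/
def uc (i : A.ι) (x : M) : ℂ := (W.u i x : ℂ)

/-- `θ = ∂ u` -/
def th : A.ι → M → Fin n → ℂ := dv A W.uc

/-- `e^{-2u}` -/
def wt (i : A.ι) (x : M) : ℂ := ((Real.exp (-2 * W.u i x) : ℝ) : ℂ)

theorem aff : Aff A (fun _ _ => 1) W.uc := by
  refine aff_of (fun i => smAt_ofReal (W.sm i)) fun i j => ?_
  obtain ⟨k, hk⟩ := W.tr i j
  exact ⟨k, fun x hx => by simp only [uc, hk x hx, Complex.ofReal_add, one_mul]⟩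

theorem pv_uc : pv A W.uc = W.th := by
  funext i x a
  simp only [pv, th, dv, uc, Complex.conj_ofReal]
  rfl

theorem smAt_th (i : A.ι) (a : Fin n) : A.SmAt i (fun y => W.th i y a) := smAt_dv W.aff.sm i a

theorem smAt_wt (i : A.ι) : A.SmAt i (W.wt i) :=
  smAt_ofReal (Real.contDiff_exp.comp_contDiffOn (contDiffOn_const.mul (W.sm i)))


theorem wt_ne (i : A.ι) (x : M) : W.wt i x ≠ 0 := by
  unfold wt
  exact_mod_cast (Real.exp_pos _).ne'

theorem wt_eq (i : A.ι) (x : M) : W.wt i x = Complex.exp (-2 * W.uc i x) := by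
  unfold wt uc
  push_cast
  rfl

theorem dl_wt {i : A.ι} {x : M} (hx : x ∈ (A.e i).source) (a : Fin n) :
    dl A i a (W.wt i) x = -2 * W.wt i x * W.th i x a := by
  have hd : DA A i (W.uc i) x := da_of (W.aff.sm i) hx
  have h1 : W.wt i = fun y => Complex.exp (-2 * W.uc i y) := funext (W.wt_eq i)
  have h2 : HasFDerivAt (fun z => Complex.exp (-2 * W.uc i ((A.e i).symm z)))
      (Complex.exp (-2 * W.uc i ((A.e i).symm (A.e i x))) •
        ((-2 : ℂ) • fderiv ℝ (fun z => W.uc i ((A.e i).symm z)) (A.e i x))) (A.e i x) :=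
    (hd.hasFDerivAt.const_mul (-2)).cexp
  rw [(A.e i).left_inv hx] at h2
  rw [h1]
  unfold th dv OmT75.dl
  rw [dj_eq_wd, dj_eq_wd, wd, wd, h2.fderiv, wdL_smul, wdL_smul, smul_eq_mul, smul_eq_mul]
  ring

theorem exists_k : ∃ κ : A.ι → A.ι → ℂ,
    ∀ i j, ∀ x ∈ (A.e i).source ∩ (A.e j).source, W.wt i x = κ i j * W.wt j x := by
  choose k hk using W.tr
  refine ⟨fun i j => ((Real.exp (-2 * k i j) : ℝ) : ℂ), fun i j x hx => ?_⟩
  unfold wt
  rw [hk i j x hx, ← Complex.ofReal_mul, ← Real.exp_add]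
  congr 2
  ring

/-- compatibility of the weights with the factors -/
def Cmp (c c' : A.ι → A.ι → ℂ) : Prop :=
  ∀ i j, ∀ x ∈ (A.e i).source ∩ (A.e j).source, W.wt i x * (c i j * c' i j) = W.wt j x

theorem Cmp.symm {W : Wt A} (h : W.Cmp c c') : W.Cmp c' c := fun i j x hx => by
  rw [mul_comm (c' i j)]; exact h i j x hx

/-- `∂∂̄v - 2 θ ∧ ∂̄v` -/
def M1 (v : A.ι → M → ℂ) (i : A.ι) (x : M) : Matrix (Fin n) (Fin n) ℂ :=
  Hv A v i x - (2 : ℂ) • Matrix.vecMulVec (W.th i x) (star (pv A v i x))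

/-- `∂∂̄v - 2 ∂v ∧ θ̄` -/
def M2 (v : A.ι → M → ℂ) (i : A.ι) (x : M) : Matrix (Fin n) (Fin n) ℂ :=
  Hv A v i x - (2 : ℂ) • Matrix.vecMulVec (dv A v i x) (star (W.th i x))

/-- the Euler-Lagrange tensor -/
def Q (v : A.ι → M → ℂ) (i : A.ι) (x : M) : Matrix (Fin n) (Fin n) ℂ :=
  Qm (Hv A v i x) (W.th i x) (dv A v i x) (pv A v i x)

/-- `e^{-2u} ∂̄ v` -/
def be (v : A.ι → M → ℂ) (i : A.ι) (x : M) : Fin n → ℂ := W.wt i x • star (pv A v i x)


theorem M2_cj (h : ∀ i, A.SmAt i (v i)) {i : A.ι} {x : M} (hx : x ∈ (A.e i).source) :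
    W.M2 (fun i y => conj (v i y)) i x = (W.M1 v i x)ᴴ := by
  unfold M1 M2
  rw [Hv_cj h hx, dv_cj, Matrix.conjTranspose_sub, Matrix.conjTranspose_smul, vv_conjT]
  simp

theorem M1_cj (h : ∀ i, A.SmAt i (v i)) {i : A.ι} {x : M} (hx : x ∈ (A.e i).source) :
    W.M1 (fun i y => conj (v i y)) i x = (W.M2 v i x)ᴴ := by
  unfold M1 M2
  rw [Hv_cj h hx, pv_cj, Matrix.conjTranspose_sub, Matrix.conjTranspose_smul, vv_conjT]
  simp

theorem smAt_be (h : ∀ i, A.SmAt i (v i)) (i : A.ι) (a : Fin n) :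
    A.SmAt i (fun y => W.be v i y a) := (W.smAt_wt i).mul (smAt_spv h i a)


theorem smAt_M2 (h : ∀ i, A.SmAt i (v i)) (i : A.ι) (a b : Fin n) :
    A.SmAt i (fun y => W.M2 v i y a b) :=
  (smAt_Hv h i a b).sub
    (contDiffOn_const.mul ((smAt_dv h i a).mul (smAt_conj (W.smAt_th i b))))


theorem Tm_be (h : ∀ i, A.SmAt i (v i)) {i : A.ι} {x : M} (hx : x ∈ (A.e i).source) :
    Tm A (W.be v) i x = W.wt i x • W.M1 v i x := by
  ext a b
  have h1 : Tm A (W.be v) i x a b =
      dl A i a (fun y => W.wt i y * star (pv A v i y) b) x := rfl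
  rw [h1, dlm (da_of (W.smAt_wt i) hx) (da_of (smAt_spv h i b) hx) hx, W.dl_wt hx]
  have h2 : dl A i a (fun y => star (pv A v i y) b) x = Hv A v i x a b := by rw [Hv_eq]; rfl
  rw [h2]
  simp only [M1, Matrix.smul_apply, Matrix.sub_apply, Matrix.vecMulVec_apply, smul_eq_mul]
  ring

theorem c01_be {κ : A.ι → A.ι → ℂ}
    (hκ : ∀ i j, ∀ x ∈ (A.e i).source ∩ (A.e j).source, W.wt i x = κ i j * W.wt j x)
    (h : Aff A c v) : C01 A (fun i j _ => κ i j * c i j) (W.be v) := by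
  intro i j x hx
  unfold be
  have h1 : star (pv A v i x) = _ := h.c01 i j x hx
  rw [h1, hκ i j x hx, Matrix.mulVec_smul, smul_smul, smul_smul]
  congr 1
  ring

theorem tnF_M2 (h : Aff A c v) : TnF A (fun i j _ => c i j) (W.M2 v) := by
  have h1 := (tnF_vv h.c10 W.aff.c10.cj).congr (m := fun i j _ => c i j) fun i j x _ => by simp
  exact h.tnF.sub (h1.smul 2)



theorem dl_sth {i : A.ι} {x : M} (hx : x ∈ (A.e i).source) (a b : Fin n) :
    dl A i a (fun y => star (W.th i y) b) x = 0 := by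
  have h1 : Hv A W.uc i x a b = 0 := by
    have : Hv A W.uc i x = 0 := W.ph i x hx
    rw [this]; rfl
  rw [Hv_eq, W.pv_uc] at h1
  exact h1

theorem closed_M2 (h : ∀ i, A.SmAt i (v i)) (i : A.ι) (x : M) (hx : x ∈ (A.e i).source)
    (a b d : Fin n) :
    dl A i d (fun y => W.M2 v i y a b) x = dl A i a (fun y => W.M2 v i y d b) x := by
  have key : ∀ a d, dl A i d (fun y => W.M2 v i y a b) x =
      dl A i d (fun y => hm A (v i) i y a b) x -
        2 * (dl A i d (dl A i a (v i)) x * star (W.th i x) b) := by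
    intro a d
    have e : (fun y => W.M2 v i y a b) =
        fun y => hm A (v i) i y a b - 2 * (dl A i a (v i) y * star (W.th i y) b) := rfl
    have s1 : DA A i (dl A i a (v i)) x := da_of (smAt_dl (h i) a) hx
    have s2 : DA A i (fun y => star (W.th i y) b) x := da_of (smAt_conj (W.smAt_th i b)) hx
    rw [e, dl_sub (da_of (smAt_hm (h i) a b) hx) ((da_const _).mul (s1.mul s2)),
      dl_cmul _ (s1.mul s2), dlm s1 s2 hx, W.dl_sth hx, mul_zero, add_zero]
  rw [key, key, dl_hm_comm (h i) hx, dl_dl_comm (h i) hx]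

theorem kappa_mul {κ : A.ι → A.ι → ℂ}
    (hκ : ∀ i j, ∀ x ∈ (A.e i).source ∩ (A.e j).source, W.wt i x = κ i j * W.wt j x)
    (hc : W.Cmp c c') (i j : A.ι) (x : M) (hx : x ∈ (A.e i).source ∩ (A.e j).source) :
    c' i j * (κ i j * c i j) = 1 := by
  have h1 := hc i j x hx
  rw [hκ i j x hx] at h1
  apply mul_right_cancel₀ (W.wt_ne j x)
  linear_combination h1

variable [T2Space M] [CompactSpace M]

/-- the integral identity -/
theorem I1 (P : Part A) (K : Kah A) (hc : W.Cmp c c') (h : Aff A c v) (h' : Aff A c' v') :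
    totc P (fun i x => (Pm (K.g i x) (W.M2 v' i x) * Tm A (W.be v) i x).trace) = 0 := by
  obtain ⟨κ, hκ⟩ := W.exists_k
  exact stokesR P (fun i => smAt_Pm K (W.smAt_M2 h'.sm i)) (W.smAt_be h.sm)
    (rf_Pm K (W.tnF_M2 h')) (W.c01_be hκ h) (W.kappa_mul hκ hc)
    (dv0_Pm K (W.smAt_M2 h'.sm) (W.closed_M2 h'.sm))

theorem I1_dn (K : Kah A) (hc : W.Cmp c c') (h : Aff A c v) (h' : Aff A c' v') :
    Dn A (fun i x => (Pm (K.g i x) (W.M2 v' i x) * Tm A (W.be v) i x).trace) := by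
  obtain ⟨κ, hκ⟩ := W.exists_k
  exact dn_tr (rf_Pm K (W.tnF_M2 h')) (tnF_Tm (W.smAt_be h.sm) (W.c01_be hκ h))
    (W.kappa_mul hκ hc)

theorem I1_sm (K : Kah A) (h : ∀ i, A.SmAt i (v i)) (h' : ∀ i, A.SmAt i (v' i)) (i : A.ι) :
    A.SmAt i (fun x => (Pm (K.g i x) (W.M2 v' i x) * Tm A (W.be v) i x).trace) :=
  smAt_trace (smAt_mm (smAt_Pm K (W.smAt_M2 h' i)) (smAt_Tm (W.smAt_be h i)))

end Wt

/-- a smooth density with a sign and integral zero vanishes -/
theorem dn_zero [T2Space M] [CompactSpace M] [Finite A.ι] (P : Part A) (K : Kah A)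
    {f : A.ι → M → ℂ} (hf : Dn A f) (hs : ∀ i, A.SmAt i (f i)) (h0 : (totc P f).re = 0)
    (hn : ∀ x, 0 ≤ (fnD K f x).re) (x : M) : (fnD K f x).re = 0 := by
  let _ : MeasurableSpace M := borel M
  have : BorelSpace M := ⟨rfl⟩
  have := isFinite_vm (volK K)
  have := isOpenPos_vm (volK K)
  have h1 := integral_fnD_re K P hf hs
  rw [h0] at h1
  have hc : Continuous fun x => (fnD K f x).re := sm_continuous (sm_re (sm_fnD K hf hs))
  have h2 := (integral_eq_zero_iff_of_nonneg (μ := vm (volK K)) hn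
    (hc.integrable_of_hasCompactSupport (HasCompactSupport.of_compactSpace _))).1 h1
  exact congrFun ((hc.ae_eq_iff_eq (vm (volK K)) continuous_zero).1 h2) x

/-- **the Bochner identity** -/
theorem bochner [T2Space M] [CompactSpace M] [Finite A.ι] (P : Part A) (K : Kah A) (W : Wt A)
    (hc : W.Cmp c (fun i j => conj (c i j))) (h : Aff A c v)
    (hE : ∀ i, ∀ x ∈ (A.e i).source, ((K.g i x)⁻¹ * W.Q v i x).trace = 0)
    (i : A.ι) (x : M) (hx : x ∈ (A.e i).source) :
    W.Q v i x = 0 ∧ (∀ a b, W.th i x a * dv A v i x b = W.th i x b * dv A v i x a) ∧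
      ∀ a b, W.th i x a * pv A v i x b = W.th i x b * pv A v i x a := by
  set f1 : A.ι → M → ℂ := fun i x =>
    (Pm (K.g i x) (W.M2 (fun i y => conj (v i y)) i x) * Tm A (W.be v) i x).trace with hf1
  set f2 : A.ι → M → ℂ := fun i x =>
    (Pm (K.g i x) (W.M2 v i x) * Tm A (W.be (fun i y => conj (v i y))) i x).trace with hf2
  have e1 : totc P f1 = 0 := W.I1 P K hc h h.cj
  have e2 : totc P f2 = 0 := W.I1 P K hc.symm h.cj h
  have d1 : Dn A f1 := W.I1_dn K hc h h.cj
  have d2 : Dn A f2 := W.I1_dn K hc.symm h.cj h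
  have s1 : ∀ i, A.SmAt i (f1 i) := W.I1_sm K h.sm h.cj.sm
  have s2 : ∀ i, A.SmAt i (f2 i) := W.I1_sm K h.cj.sm h.sm
  have d3 : Dn A (fun i x => -1 * (f1 i x + f2 i x)) := by
    intro i j x hx
    change -1 * (f1 i x + f2 i x) = _ * (-1 * (f1 j x + f2 j x))
    rw [d1 i j x hx, d2 i j x hx]
    ring
  have s3 : ∀ i, A.SmAt i (fun x => -1 * (f1 i x + f2 i x)) := fun i =>
    contDiffOn_const.mul ((s1 i).add (s2 i))
  have e3 : totc P (fun i x => -1 * (f1 i x + f2 i x)) = 0 := by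
    rw [totc_smul, totc_add P s1 s2, e1, e2, add_zero, mul_zero]
  have key : ∀ i, ∀ x ∈ (A.e i).source, (fnD K (fun i x => -1 * (f1 i x + f2 i x)) x).re =
      - Real.exp (-2 * W.u i x) *
        (boch (K.g i x)⁻¹ (Hv A v i x) (W.th i x) (dv A v i x) (pv A v i x)).re := by
    intro i x hx
    have hd := K_det_ne K hx
    rw [fnD_div K d3 hx]
    have e : -1 * (f1 i x + f2 i x) / (K.g i x).det = ((- Real.exp (-2 * W.u i x) : ℝ) : ℂ) *
        boch (K.g i x)⁻¹ (Hv A v i x) (W.th i x) (dv A v i x) (pv A v i x) := by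
      simp only [hf1, hf2]
      rw [trace_Pm hd, trace_Pm hd, W.Tm_be h.sm hx, W.Tm_be h.cj.sm hx, W.M2_cj h.sm hx,
        W.M1_cj h.sm hx, Bq_smul_right, Bq_smul_right]
      unfold boch Wt.M1 Wt.M2 Wt.wt
      push_cast
      field_simp
    rw [e, Complex.re_ofReal_mul]
  have hn : ∀ x, 0 ≤ (fnD K (fun i x => -1 * (f1 i x + f2 i x)) x).re := by
    intro x
    rw [key _ x (mem_ci x), neg_mul, ← mul_neg]
    exact mul_nonneg (Real.exp_pos _).le (neg_nonneg.2
      (boch_re_le (K.pos _ _ (mem_ci x)).inv _ _ _ _ (hE _ _ (mem_ci x))))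
  have h0 := dn_zero P K d3 s3 (by rw [e3]; rfl) hn x
  rw [key i x hx] at h0
  have h1 := (mul_eq_zero.1 h0).resolve_left (neg_ne_zero.2 (Real.exp_pos _).ne')
  exact boch_eq (K.pos i x hx).inv _ _ _ _ (hE i x hx) h1

end

end Crest.Agent.X261.Har
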